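import Crest.Agent.SaxlN.MKFast

/-!
Base systems, checked by the kernel.
-/

set_option autoImplicit false
set_option maxRecDepth 100000

namespace Crest.Agent.SaxlN.MK

theorem good18 : Good ([6,5,4,3] : List ℕ).toFinset :=
  good_of_tree (n := 18)
    (es := [(([6,4],[4,3],[4,3]),[(0,0),(4,11),(8,18)],[(0,0)]),
      (([6,4],[4,3],[6,5]),[(0,0)],[(0,0),(4,11),(8,18)]),
      (([],[4,3],[5,3]),[(0,0),(1,6),(2,9)],[(0,0),(2,9)])])
    (ms := [[(4,0,11),(8,0,18)],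
      [(0,4,11),(0,8,18)],
      [(0,2,9),(1,0,6),(1,2,15),(2,0,9),(2,2,18)]])
    (by decide +kernel) (by decide +kernel) (by decide +kernel) (by decide +kernel)

theorem good19 : Good ([6,5,4,3,1] : List ℕ).toFinset :=
  good_of_tree (n := 19)
    (es := [(([6,4],[4,3],[4,3]),[(0,0),(4,11),(8,18),(9,19)],[(0,0)]),
      (([6,4],[4,3],[6,5]),[(0,0),(1,1)],[(0,0),(4,11),(8,18)]),
      (([],[5,3],[5,4]),[(0,0),(2,11),(3,12)],[(0,0),(2,7)])])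
    (ms := [[(4,0,11),(8,0,18),(9,0,19)],
      [(0,4,11),(0,8,18),(1,0,1),(1,4,12),(1,8,19)],
      [(0,2,7),(2,0,11),(2,2,18),(3,0,12),(3,2,19)]])
    (by decide +kernel) (by decide +kernel) (by decide +kernel) (by decide +kernel)

theorem good23 : Good ([7,6,5,4,1] : List ℕ).toFinset :=
  good_of_tree (n := 23)
    (es := [(([7,5],[5,4],[5,4]),[(0,0),(5,16),(9,23)],[(0,0)]),
      (([],[5,4],[6,4]),[(0,0),(1,7),(2,11),(3,12)],[(0,0),(2,11)]),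
      (([7,5],[5,4],[7,6,1]),[(0,0)],[(0,0),(5,16),(9,23)])])
    (ms := [[(5,0,16),(9,0,23)],
      [(0,2,11),(1,0,7),(1,2,18),(2,0,11),(2,2,22),(3,0,12),(3,2,23)],
      [(0,5,16),(0,9,23)]])
    (by decide +kernel) (by decide +kernel) (by decide +kernel) (by decide +kernel)

theorem good25 : Good ([7,6,5,4,2,1] : List ℕ).toFinset :=
  good_of_tree (n := 25)
    (es := [(([7,5,2],[5,4],[5,4]),[(0,0),(5,16),(9,23),(12,25)],[(0,0)]),
      (([7,5,2],[5,4],[7,6]),[(0,0),(4,3)],[(0,0),(5,16),(8,22)]),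
      (([2],[5,4],[6,4,2,1]),[(0,0),(1,7),(2,11)],[(0,0),(2,11),(6,14)])])
    (ms := [[(5,0,16),(9,0,23),(12,0,25)],
      [(0,5,16),(0,8,22),(4,0,3),(4,5,19),(4,8,25)],
      [(0,2,11),(0,6,14),(1,0,7),(1,2,18),(1,6,21),(2,0,11),(2,2,22),(2,6,25)]])
    (by decide +kernel) (by decide +kernel) (by decide +kernel) (by decide +kernel)

theorem good27 : Good ([7,6,5,4,3,2] : List ℕ).toFinset :=
  good_of_tree (n := 27)
    (es := [(([7,5],[5,4,2],[5,4,2]),[(0,0),(6,19),(10,27)],[(0,0)]),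
      (([7,5],[5,4,2],[7,6,3]),[(0,0)],[(0,0),(6,19),(10,27)]),
      (([7,3],[4,3,2],[7,6,4]),[(0,0),(2,9)],[(0,0),(4,13),(8,18)])])
    (ms := [[(6,0,19),(10,0,27)],
      [(0,6,19),(0,10,27)],
      [(0,4,13),(0,8,18),(2,0,9),(2,4,22),(2,8,27)]])
    (by decide +kernel) (by decide +kernel) (by decide +kernel) (by decide +kernel)

theorem good29 : Good ([8,7,6,5,2,1] : List ℕ).toFinset :=
  good_of_tree (n := 29)
    (es := [(([8,6,2],[6,5],[6,5]),[(0,0),(4,15),(8,26),(12,29)],[(0,0)]),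
      (([2],[6,5],[7,5]),[(0,0),(1,8),(2,13),(6,16)],[(0,0),(2,13)]),
      (([8,6,2],[6,5],[8,7]),[(0,0),(4,3)],[(0,0),(4,15),(8,26)])])
    (ms := [[(4,0,15),(8,0,26),(12,0,29)],
      [(0,2,13),(1,0,8),(1,2,21),(2,0,13),(2,2,26),(6,0,16),(6,2,29)],
      [(0,4,15),(0,8,26),(4,0,3),(4,4,18),(4,8,29)]])
    (by decide +kernel) (by decide +kernel) (by decide +kernel) (by decide +kernel)

theorem good31 : Good ([8,7,6,5,3,2] : List ℕ).toFinset :=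
  good_of_tree (n := 31)
    (es := [(([8,6],[6,5,2],[6,5,2]),[(0,0),(4,15),(9,29),(10,31)],[(0,0)]),
      (([],[7,5,2],[7,6,3]),[(0,0),(2,15)],[(0,0),(2,11),(4,16)]),
      (([8,6],[6,5,2],[8,7,2]),[(0,0),(2,5)],[(0,0),(4,15),(8,26)]),
      (([],[7,5,2],[7,6,2]),[(0,0),(2,15),(4,20)],[(0,0),(2,11)]),
      (([8,6],[6,5,2],[8,7,3]),[(0,0)],[(0,0),(4,15),(9,29),(10,31)])])
    (ms := [[(4,0,15),(9,0,29),(10,0,31)],
      [(0,2,11),(0,4,16),(2,0,15),(2,2,26),(2,4,31)],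
      [(0,4,15),(0,8,26),(2,0,5),(2,4,20),(2,8,31)],
      [(0,2,11),(2,0,15),(2,2,26),(4,0,20),(4,2,31)],
      [(0,4,15),(0,9,29),(0,10,31)]])
    (by decide +kernel) (by decide +kernel) (by decide +kernel) (by decide +kernel)

theorem good32 : Good ([8,7,6,5,3,2,1] : List ℕ).toFinset :=
  good_of_tree (n := 32)
    (es := [(([8,6,3],[6,5],[6,5]),[(0,0),(4,15),(8,26),(13,32)],[(0,0)]),
      (([3],[7,5],[7,6,3,2,1]),[(0,0),(2,15)],[(0,0),(2,11),(7,17)]),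
      (([8,6,3],[6,5],[8,7,3,2,1]),[(0,0)],[(0,0),(4,15),(8,26),(13,32)])])
    (ms := [[(4,0,15),(8,0,26),(13,0,32)],
      [(0,2,11),(0,7,17),(2,0,15),(2,2,26),(2,7,32)],
      [(0,4,15),(0,8,26),(0,13,32)]])
    (by decide +kernel) (by decide +kernel) (by decide +kernel) (by decide +kernel)

theorem good33 : Good ([8,7,6,5,4,3] : List ℕ).toFinset :=
  good_of_tree (n := 33)
    (es := [(([6,4],[7,4,3],[7,6,5]),[(0,0),(2,15)],[(0,0),(4,11),(8,18)]),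
      (([8,6],[6,5,3],[6,5,3]),[(0,0),(5,19),(10,33)],[(0,0)]),
      (([8,6],[6,5,3],[8,7,4]),[(0,0)],[(0,0),(5,19),(10,33)]),
      (([7,5],[5,4,3],[7,6,3]),[(0,0),(1,8),(2,11)],[(0,0),(5,16),(8,22)])])
    (ms := [[(0,4,11),(0,8,18),(2,0,15),(2,4,26),(2,8,33)],
      [(5,0,19),(10,0,33)],
      [(0,5,19),(0,10,33)],
      [(0,5,16),(0,8,22),(1,0,8),(1,5,24),(1,8,30),(2,0,11),(2,5,27),(2,8,33)]])
    (by decide +kernel) (by decide +kernel) (by decide +kernel) (by decide +kernel)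

theorem good34 : Good ([8,7,6,5,4,3,1] : List ℕ).toFinset :=
  good_of_tree (n := 34)
    (es := [(([6,4],[7,4,3],[7,6,5,1]),[(0,0),(2,15)],[(0,0),(4,11),(8,18),(9,19)]),
      (([8,6],[6,5,3],[6,5,3]),[(0,0),(5,19),(10,33),(11,34)],[(0,0)]),
      (([8,6],[6,5,3],[8,7,4]),[(0,0),(1,1)],[(0,0),(5,19),(10,33)]),
      (([8,4],[5,4,3],[8,7,5,1]),[(0,0),(2,11)],[(0,0),(4,15),(8,22),(9,23)])])
    (ms := [[(0,4,11),(0,8,18),(0,9,19),(2,0,15),(2,4,26),(2,8,33),(2,9,34)],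
      [(5,0,19),(10,0,33),(11,0,34)],
      [(0,5,19),(0,10,33),(1,0,1),(1,5,20),(1,10,34)],
      [(0,4,15),(0,8,22),(0,9,23),(2,0,11),(2,4,26),(2,8,33),(2,9,34)]])
    (by decide +kernel) (by decide +kernel) (by decide +kernel) (by decide +kernel)

theorem good35 : Good ([9,8,7,6,3,2] : List ℕ).toFinset :=
  good_of_tree (n := 35)
    (es := [(([9,7],[7,6,2],[7,6,2]),[(0,0),(5,21),(10,35)],[(0,0)]),
      (([],[8,6,2],[8,7,3]),[(0,0),(2,17)],[(0,0),(2,13),(4,18)]),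
      (([9,7],[7,6,2],[9,8,2]),[(0,0),(2,5)],[(0,0),(5,21),(8,30)]),
      (([9,7],[7,6,2],[7,6,3]),[(0,0),(5,21),(8,30)],[(0,0),(2,5)]),
      (([9,7],[7,6,2],[9,8,3]),[(0,0)],[(0,0),(5,21),(10,35)]),
      (([],[7,6,2],[8,6,3]),[(0,0),(1,9),(2,15)],[(0,0),(2,15),(4,20)]),
      (([],[7,6,2],[8,6,2]),[(0,0),(1,9),(2,15),(4,20)],[(0,0),(2,15)])])
    (ms := [[(5,0,21),(10,0,35)],
      [(0,2,13),(0,4,18),(2,0,17),(2,2,30),(2,4,35)],
      [(0,5,21),(0,8,30),(2,0,5),(2,5,26),(2,8,35)],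
      [(0,2,5),(5,0,21),(5,2,26),(8,0,30),(8,2,35)],
      [(0,5,21),(0,10,35)],
      [(0,2,15),(0,4,20),(1,0,9),(1,2,24),(1,4,29),(2,0,15),(2,2,30),(2,4,35)],
      [(0,2,15),(1,0,9),(1,2,24),(2,0,15),(2,2,30),(4,0,20),(4,2,35)]])
    (by decide +kernel) (by decide +kernel) (by decide +kernel) (by decide +kernel)

theorem good37 : Good ([9,8,7,6,4,3] : List ℕ).toFinset :=
  good_of_tree (n := 37)
    (es := [(([9,7],[7,6,3],[7,6,3]),[(0,0),(6,25),(10,37)],[(0,0)]),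
      (([],[8,6,3],[8,7,3]),[(0,0),(2,17),(4,24)],[(0,0),(2,13)]),
      (([9,7],[7,6,3],[9,8,3]),[(0,0),(2,7)],[(0,0),(5,21),(8,30)]),
      (([],[8,6,3],[8,7,4]),[(0,0),(2,17)],[(0,0),(2,13),(4,20)]),
      (([9,7],[7,6,3],[9,8,4]),[(0,0)],[(0,0),(6,25),(10,37)]),
      (([9,7],[7,6,3],[7,6,4]),[(0,0),(5,21),(8,30)],[(0,0),(2,7)])])
    (ms := [[(6,0,25),(10,0,37)],
      [(0,2,13),(2,0,17),(2,2,30),(4,0,24),(4,2,37)],
      [(0,5,21),(0,8,30),(2,0,7),(2,5,28),(2,8,37)],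
      [(0,2,13),(0,4,20),(2,0,17),(2,2,30),(2,4,37)],
      [(0,6,25),(0,10,37)],
      [(0,2,7),(5,0,21),(5,2,28),(8,0,30),(8,2,37)]])
    (by decide +kernel) (by decide +kernel) (by decide +kernel) (by decide +kernel)

theorem good38 : Good ([9,8,7,6,4,3,1] : List ℕ).toFinset :=
  good_of_tree (n := 38)
    (es := [(([9,7],[7,6,3],[7,6,3]),[(0,0),(6,25),(10,37),(11,38)],[(0,0)]),
      (([],[8,6,3],[8,7,4,1]),[(0,0),(2,17)],[(0,0),(2,13),(4,20),(5,21)]),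
      (([9,7],[7,6,3],[9,8,3]),[(0,0),(2,7),(3,8)],[(0,0),(5,21),(8,30)]),
      (([9,7],[7,6,3],[7,6,4]),[(0,0),(5,21),(8,30),(9,31)],[(0,0),(2,7)]),
      (([9,7],[7,6,3],[9,8,4]),[(0,0),(1,1)],[(0,0),(6,25),(10,37)])])
    (ms := [[(6,0,25),(10,0,37),(11,0,38)],
      [(0,2,13),(0,4,20),(0,5,21),(2,0,17),(2,2,30),(2,4,37),(2,5,38)],
      [(0,5,21),(0,8,30),(2,0,7),(2,5,28),(2,8,37),(3,0,8),(3,5,29),(3,8,38)],
      [(0,2,7),(5,0,21),(5,2,28),(8,0,30),(8,2,37),(9,0,31),(9,2,38)],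
      [(0,6,25),(0,10,37),(1,0,1),(1,6,26),(1,10,38)]])
    (by decide +kernel) (by decide +kernel) (by decide +kernel) (by decide +kernel)

theorem good39 : Good ([9,8,7,6,5,4] : List ℕ).toFinset :=
  good_of_tree (n := 39)
    (es := [(([7,5],[8,5,4],[8,7,6]),[(0,0),(2,17)],[(0,0),(5,16),(8,22)]),
      (([9,7],[7,6,4],[7,6,4]),[(0,0),(3,14),(8,33),(10,39)],[(0,0)]),
      (([9,7],[7,6,4],[9,8,5]),[(0,0)],[(0,0),(3,14),(8,33),(10,39)]),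
      (([9],[6,5,4],[7,6,4]),[(0,0),(2,11),(6,27)],[(0,0),(1,7),(2,12)]),
      (([9,6],[6,5,4],[9,8,4]),[(0,0),(1,7),(2,11)],[(0,0),(4,17),(8,28)])])
    (ms := [[(0,5,16),(0,8,22),(2,0,17),(2,5,33),(2,8,39)],
      [(3,0,14),(8,0,33),(10,0,39)],
      [(0,3,14),(0,8,33),(0,10,39)],
      [(0,1,7),(0,2,12),(2,0,11),(2,1,18),(2,2,23),(6,0,27),(6,1,34),(6,2,39)],
      [(0,4,17),(0,8,28),(1,0,7),(1,4,24),(1,8,35),(2,0,11),(2,4,28),(2,8,39)]])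
    (by decide +kernel) (by decide +kernel) (by decide +kernel) (by decide +kernel)

theorem good40 : Good ([9,8,7,6,4,3,2,1] : List ℕ).toFinset :=
  good_of_tree (n := 40)
    (es := [(([9,7,4,2],[7,6],[7,6]),[(0,0),(5,21),(9,32),(12,37),(16,40)],[(0,0)]),
      (([4,2],[8,6],[8,7,4,3,2,1]),[(0,0),(2,17)],[(0,0),(2,13),(6,20),(10,23)]),
      (([9,7,4,2],[7,6],[9,8,4,3]),[(0,0),(4,3)],[(0,0),(5,21),(9,32),(12,37)])])
    (ms := [[(5,0,21),(9,0,32),(12,0,37),(16,0,40)],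
      [(0,2,13),(0,6,20),(0,10,23),(2,0,17),(2,2,30),(2,6,37),(2,10,40)],
      [(0,5,21),(0,9,32),(0,12,37),(4,0,3),(4,5,24),(4,9,35),(4,12,40)]])
    (by decide +kernel) (by decide +kernel) (by decide +kernel) (by decide +kernel)

theorem good41 : Good ([10,9,8,7,4,3] : List ℕ).toFinset :=
  good_of_tree (n := 41)
    (es := [(([10,8],[8,7,3],[8,7,3]),[(0,0),(4,19),(9,38),(10,41)],[(0,0)]),
      (([10,8],[8,7,3],[8,7,4]),[(0,0),(4,19),(8,34)],[(0,0),(2,7)]),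
      (([10,8],[8,7,3],[10,9,3]),[(0,0),(2,7)],[(0,0),(4,19),(8,34)]),
      (([],[8,7,3],[9,7,3]),[(0,0),(1,10),(2,17),(4,24)],[(0,0),(2,17)]),
      (([10,8],[8,7,3],[10,9,4]),[(0,0)],[(0,0),(4,19),(9,38),(10,41)]),
      (([],[8,7,3],[9,7,4]),[(0,0),(1,10),(2,17)],[(0,0),(2,17),(4,24)])])
    (ms := [[(4,0,19),(9,0,38),(10,0,41)],
      [(0,2,7),(4,0,19),(4,2,26),(8,0,34),(8,2,41)],
      [(0,4,19),(0,8,34),(2,0,7),(2,4,26),(2,8,41)],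
      [(0,2,17),(1,0,10),(1,2,27),(2,0,17),(2,2,34),(4,0,24),(4,2,41)],
      [(0,4,19),(0,9,38),(0,10,41)],
      [(0,2,17),(0,4,24),(1,0,10),(1,2,27),(1,4,34),(2,0,17),(2,2,34),(2,4,41)]])
    (by decide +kernel) (by decide +kernel) (by decide +kernel) (by decide +kernel)

theorem good42 : Good ([9,8,7,6,5,4,2,1] : List ℕ).toFinset :=
  good_of_tree (n := 42)
    (es := [(([7,5,2],[8,5,4],[8,7,6,2,1]),[(0,0),(2,17)],[(0,0),(5,16),(9,23),(12,25)]),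
      (([9,7,2],[7,6,4],[7,6,4]),[(0,0),(3,14),(8,33),(10,39),(14,42)],[(0,0)]),
      (([9,7,2],[7,6,4],[9,8,5,2,1]),[(0,0)],[(0,0),(3,14),(8,33),(10,39),(14,42)]),
      (([9,2],[7,5,4],[9,8,5]),[(0,0),(2,11),(6,14)],[(0,0),(1,7),(6,28)]),
      (([9,2],[7,5,4],[7,6,4,2,1]),[(0,0),(1,7),(6,28)],[(0,0),(2,11),(6,14)])])
    (ms := [[(0,5,16),(0,9,23),(0,12,25),(2,0,17),(2,5,33),(2,9,40),(2,12,42)],
      [(3,0,14),(8,0,33),(10,0,39),(14,0,42)],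
      [(0,3,14),(0,8,33),(0,10,39),(0,14,42)],
      [(0,1,7),(0,6,28),(2,0,11),(2,1,18),(2,6,39),(6,0,14),(6,1,21),(6,6,42)],
      [(0,2,11),(0,6,14),(1,0,7),(1,2,18),(1,6,21),(6,0,28),(6,2,39),(6,6,42)]])
    (by decide +kernel) (by decide +kernel) (by decide +kernel) (by decide +kernel)

end Crest.Agent.SaxlN.MK
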