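import Crest.Agent.SaxlN.MKFast

/-!
Base systems, checked by the kernel.
-/

set_option autoImplicit false
set_option maxRecDepth 100000

namespace Crest.Agent.SaxlN.MK

theorem good43 : Good ([10,9,8,7,5,4] : List ℕ).toFinset :=
  good_of_tree (n := 43)
    (es := [(([10,8],[8,7,4],[8,7,4]),[(0,0),(5,24),(10,43)],[(0,0)]),
      (([10,8],[8,7,4],[8,7,5]),[(0,0),(4,19),(8,34)],[(0,0),(2,9)]),
      (([10,8],[8,7,4],[10,9,4]),[(0,0),(2,9)],[(0,0),(4,19),(8,34)]),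
      (([],[9,7,4],[9,8,5]),[(0,0),(2,19)],[(0,0),(2,15),(4,24)]),
      (([10,8],[8,7,4],[10,9,5]),[(0,0)],[(0,0),(5,24),(10,43)]),
      (([],[8,7,4],[9,7,4]),[(0,0),(1,10),(2,17),(4,26)],[(0,0),(2,17)])])
    (ms := [[(5,0,24),(10,0,43)],
      [(0,2,9),(4,0,19),(4,2,28),(8,0,34),(8,2,43)],
      [(0,4,19),(0,8,34),(2,0,9),(2,4,28),(2,8,43)],
      [(0,2,15),(0,4,24),(2,0,19),(2,2,34),(2,4,43)],
      [(0,5,24),(0,10,43)],
      [(0,2,17),(1,0,10),(1,2,27),(2,0,17),(2,2,34),(4,0,26),(4,2,43)]])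
    (by decide +kernel) (by decide +kernel) (by decide +kernel) (by decide +kernel)

theorem good46 : Good ([10,9,8,7,5,4,2,1] : List ℕ).toFinset :=
  good_of_tree (n := 46)
    (es := [(([10,8,2],[8,7,4],[8,7,4]),[(0,0),(5,24),(10,43),(14,46)],[(0,0)]),
      (([2],[9,7,4],[9,8,4,2,1]),[(0,0),(2,19),(4,28)],[(0,0),(2,15),(6,18)]),
      (([10,8,2],[8,7,4],[10,9,4,2,1]),[(0,0),(2,9)],[(0,0),(4,19),(8,34),(12,37)]),
      (([2],[9,7,4],[10,7,4]),[(0,0),(2,15),(4,24),(8,27)],[(0,0),(2,19)]),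
      (([10,8,2],[8,7,4],[10,9,5]),[(0,0),(4,3)],[(0,0),(5,24),(10,43)])])
    (ms := [[(5,0,24),(10,0,43),(14,0,46)],
      [(0,2,15),(0,6,18),(2,0,19),(2,2,34),(2,6,37),(4,0,28),(4,2,43),(4,6,46)],
      [(0,4,19),(0,8,34),(0,12,37),(2,0,9),(2,4,28),(2,8,43),(2,12,46)],
      [(0,2,19),(2,0,15),(2,2,34),(4,0,24),(4,2,43),(8,0,27),(8,2,46)],
      [(0,5,24),(0,10,43),(4,0,3),(4,5,27),(4,10,46)]])
    (by decide +kernel) (by decide +kernel) (by decide +kernel) (by decide +kernel)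

theorem good48 : Good ([10,9,8,7,5,4,3,2] : List ℕ).toFinset :=
  good_of_tree (n := 48)
    (es := [(([10,8,5,3],[8,7,3,2],[8,7,3,2]),[(0,0),(4,19),(8,34),(13,45),(16,48)],[(0,0)]),
      (([10,8,5,3],[8,7,3,2],[10,9,3,2]),[(0,0),(5,11),(8,14)],[(0,0),(4,19),(8,34)]),
      (([10,8,5,3],[8,7,3,2],[8,7,5,4]),[(0,0),(4,19),(8,34)],[(0,0),(5,11),(8,14)]),
      (([10,8,5,3],[8,7,3,2],[10,9,5,4]),[(0,0)],[(0,0),(4,19),(8,34),(13,45),(16,48)]),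
      (([5,3],[9,7,3,2],[9,8,5,4]),[(0,0),(2,19)],[(0,0),(2,15),(7,26),(10,29)])])
    (ms := [[(4,0,19),(8,0,34),(13,0,45),(16,0,48)],
      [(0,4,19),(0,8,34),(5,0,11),(5,4,30),(5,8,45),(8,0,14),(8,4,33),(8,8,48)],
      [(0,5,11),(0,8,14),(4,0,19),(4,5,30),(4,8,33),(8,0,34),(8,5,45),(8,8,48)],
      [(0,4,19),(0,8,34),(0,13,45),(0,16,48)],
      [(0,2,15),(0,7,26),(0,10,29),(2,0,19),(2,2,34),(2,7,45),(2,10,48)]])
    (by decide +kernel) (by decide +kernel) (by decide +kernel) (by decide +kernel)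

theorem good49 : Good ([10,9,8,7,5,4,3,2,1] : List ℕ).toFinset :=
  good_of_tree (n := 49)
    (es := [(([10,8,5,3],[8,7],[8,7]),[(0,0),(4,19),(8,34),(13,45),(17,49)],[(0,0)]),
      (([10,8,5,2],[8,7],[10,9,2,1]),[(0,0),(3,8),(5,12)],[(0,0),(4,19),(8,34),(12,37)]),
      (([10,8,5,3],[8,7],[10,9,5,4,3,2,1]),[(0,0)],[(0,0),(4,19),(8,34),(13,45),(17,49)]),
      (([5,3],[9,7],[9,8,3,2,1]),[(0,0),(2,19),(6,28)],[(0,0),(2,15),(7,21)])])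
    (ms := [[(4,0,19),(8,0,34),(13,0,45),(17,0,49)],
      [(0,4,19),(0,8,34),(0,12,37),(3,0,8),(3,4,27),(3,8,42),(3,12,45),(5,0,12),(5,4,31),(5,8,46),(5,12,49)],
      [(0,4,19),(0,8,34),(0,13,45),(0,17,49)],
      [(0,2,15),(0,7,21),(2,0,19),(2,2,34),(2,7,40),(6,0,28),(6,2,43),(6,7,49)]])
    (by decide +kernel) (by decide +kernel) (by decide +kernel) (by decide +kernel)

theorem good50 : Good ([10,9,8,7,6,5,3,2] : List ℕ).toFinset :=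
  good_of_tree (n := 50)
    (es := [(([10,8],[8,7,5,2],[8,7,5,2]),[(0,0),(5,26),(10,45),(12,50)],[(0,0)]),
      (([10,8],[8,7,5,2],[8,7,6,3]),[(0,0),(4,19),(8,34)],[(0,0),(2,11),(4,16)]),
      (([8,6],[9,6,5,2],[9,8,7,3]),[(0,0),(2,19)],[(0,0),(4,15),(9,29),(10,31)]),
      (([10,8],[8,7,5,2],[10,9,6,3]),[(0,0)],[(0,0),(5,26),(10,45),(12,50)]),
      (([10,8],[8,7,5,2],[10,9,5,3]),[(0,0),(2,11)],[(0,0),(4,19),(8,34),(10,39)])])
    (ms := [[(5,0,26),(10,0,45),(12,0,50)],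
      [(0,2,11),(0,4,16),(4,0,19),(4,2,30),(4,4,35),(8,0,34),(8,2,45),(8,4,50)],
      [(0,4,15),(0,9,29),(0,10,31),(2,0,19),(2,4,34),(2,9,48),(2,10,50)],
      [(0,5,26),(0,10,45),(0,12,50)],
      [(0,4,19),(0,8,34),(0,10,39),(2,0,11),(2,4,30),(2,8,45),(2,10,50)]])
    (by decide +kernel) (by decide +kernel) (by decide +kernel) (by decide +kernel)

theorem good51 : Good ([10,9,8,7,6,5,3,2,1] : List ℕ).toFinset :=
  good_of_tree (n := 51)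
    (es := [(([8,6,3],[9,6,5],[9,8,7,3,2,1]),[(0,0),(2,19)],[(0,0),(4,15),(8,26),(13,32)]),
      (([10,8,3],[8,7,5],[8,7,5]),[(0,0),(5,26),(10,45),(15,51)],[(0,0)]),
      (([7,3],[8,7,6],[9,7,6]),[(0,0),(1,10),(3,19),(7,30),(11,34)],[(0,0),(2,17)]),
      (([10,8,3],[8,7,5],[10,9,5]),[(0,0),(2,11),(7,17)],[(0,0),(4,19),(8,34)]),
      (([10,8,3],[8,7,5],[10,9,6,3,2]),[(0,0),(1,1)],[(0,0),(5,26),(10,45),(14,50)])])
    (ms := [[(0,4,15),(0,8,26),(0,13,32),(2,0,19),(2,4,34),(2,8,45),(2,13,51)],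
      [(5,0,26),(10,0,45),(15,0,51)],
      [(0,2,17),(1,0,10),(1,2,27),(3,0,19),(3,2,36),(7,0,30),(7,2,47),(11,0,34),(11,2,51)],
      [(0,4,19),(0,8,34),(2,0,11),(2,4,30),(2,8,45),(7,0,17),(7,4,36),(7,8,51)],
      [(0,5,26),(0,10,45),(0,14,50),(1,0,1),(1,5,27),(1,10,46),(1,14,51)]])
    (by decide +kernel) (by decide +kernel) (by decide +kernel) (by decide +kernel)

end Crest.Agent.SaxlN.MK
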