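import Crest.Agent.SaxlN.MKFast

/-!
The system `11, 10, 9, 8, 5, 4` for `n = 47`: one exceptional shape.
-/

set_option autoImplicit false
set_option maxRecDepth 100000

namespace Crest.Agent.SaxlN.MK

open Finset Equiv
open Crest.Agent.Saxl

/-- the exceptional partition of 47 (self-conjugate) -/
def exc47 : List ℕ := [18, 5, 5, 3, 3, 1, 1, 1, 1, 1, 1, 1, 1, 1, 1, 1, 1, 1]

theorem tree47 : treeCheck ([[(0,2,9),(5,0,26),(5,2,35),(8,0,38),(8,2,47)],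
      [(6,0,31),(10,0,47)],
      [(0,2,17),(0,4,26),(2,0,21),(2,2,38),(2,4,47)],
      [(0,5,26),(0,8,38),(2,0,9),(2,5,35),(2,8,47)],
      [(0,6,31),(0,10,47)],
      [(0,2,21),(0,4,30),(2,0,17),(2,2,38),(2,4,47)],
      [(0,2,19),(1,0,11),(1,2,30),(2,0,19),(2,2,38),(4,0,28),(4,2,47)]] ++
      [[(1,0,18),(3,0,28),(5,0,34),(18,0,47),(0,1,18),(0,3,28),(0,5,34),(0,18,47)]]) 47 = true := by
  decide +kernel

theorem sv_or_exc47 {X : Type} [Fintype X] [DecidableEq X] (hX : Fintype.card X = 47)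
    {W : Type} [AddCommGroup W] [Module ℂ W] [Nontrivial W] (σ : Representation ℂ (Perm X) W) :
    HasSV ([11, 10, 9, 8, 5, 4] : List ℕ).toFinset σ ∨ ∃ ρ κ : Word X, IsTab (fun _ => 0) ρ κ ∧
      (∃ w, yact σ ρ κ w ≠ 0) ∧ ∀ i, sz ρ i = exc47.getD i 0 := by
  have h := sv_or_exc (La := [11, 10, 9, 8, 5, 4])
    (es := [(([11,9],[9,8,4],[9,8,5]),[(0,0),(5,26),(8,38)],[(0,0),(2,9)]),
      (([11,9],[9,8,4],[9,8,4]),[(0,0),(6,31),(10,47)],[(0,0)]),
      (([],[10,8,4],[10,9,5]),[(0,0),(2,21)],[(0,0),(2,17),(4,26)]),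
      (([11,9],[9,8,4],[11,10,4]),[(0,0),(2,9)],[(0,0),(5,26),(8,38)]),
      (([11,9],[9,8,4],[11,10,5]),[(0,0)],[(0,0),(6,31),(10,47)]),
      (([],[10,8,4],[11,8,5]),[(0,0),(2,17)],[(0,0),(2,21),(4,30)]),
      (([],[9,8,4],[10,8,4]),[(0,0),(1,11),(2,19),(4,28)],[(0,0),(2,19)])])
    (xs := [(exc47, exc47, [(0,0),(1,18),(3,28),(5,34),(18,47)], [(0,0),(1,18),(3,28),(5,34),(18,47)])])
    (by decide +kernel) (by decide +kernel) (by decide +kernel) (by decide +kernel)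
    (by decide +kernel) tree47 hX σ
  rcases h with h | ⟨x, hx, h⟩
  · exact Or.inl h
  · rw [List.mem_singleton] at hx
    subst hx
    exact Or.inr h

end Crest.Agent.SaxlN.MK
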