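import Crest.Agent.SaxlN.MKFast

/-!
Base systems, checked by the kernel.
-/

set_option autoImplicit false
set_option maxRecDepth 100000

namespace Crest.Agent.SaxlN.MK

theorem good59 : Good ([11,10,9,8,6,5,4,3,2,1] : List ℕ).toFinset :=
  good_of_tree (n := 59)
    (es := [(([11,9,6,4,2],[9,8],[9,8,6,5,4,3,2,1]),[(0,0),(5,26),(8,38)],[(0,0),(4,11),(8,18),(12,21)]),
      (([11,9,6,4,2],[9,8],[9,8]),[(0,0),(5,26),(9,41),(12,49),(16,56),(20,59)],[(0,0)]),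
      (([6,4,2],[10,8],[10,9,6,5,4,3,2,1]),[(0,0),(2,21)],[(0,0),(2,17),(6,28),(10,35),(14,38)]),
      (([11,9,6,4,2],[9,8],[11,10,6,5,4,3,2,1]),[(0,0)],[(0,0),(5,26),(9,41),(12,49),(16,56),(20,59)])])
    (ms := [[(0,4,11),(0,8,18),(0,12,21),(5,0,26),(5,4,37),(5,8,44),(5,12,47),(8,0,38),(8,4,49),(8,8,56),(8,12,59)],
      [(5,0,26),(9,0,41),(12,0,49),(16,0,56),(20,0,59)],
      [(0,2,17),(0,6,28),(0,10,35),(0,14,38),(2,0,21),(2,2,38),(2,6,49),(2,10,56),(2,14,59)],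
      [(0,5,26),(0,9,41),(0,12,49),(0,16,56),(0,20,59)]])
    (by decide +kernel) (by decide +kernel) (by decide +kernel) (by decide +kernel)

theorem good60 : Good ([11,10,9,8,7,6,5,4] : List ℕ).toFinset :=
  good_of_tree (n := 60)
    (es := [(([11,9,6],[7,6,5,4],[9,8,7,4]),[(0,0),(2,13),(6,32)],[(0,0),(4,17),(8,28)]),
      (([11,9,7,5],[7,6,5,4],[7,6,5,4]),[(0,0),(5,26),(10,45),(14,56),(16,60)],[(0,0)]),
      (([9,7],[10,7,6,4],[10,9,8,5]),[(0,0),(2,21)],[(0,0),(3,14),(8,33),(10,39)]),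
      (([11,9,7,5],[7,6,5,4],[11,10,9,8]),[(0,0)],[(0,0),(5,26),(10,45),(14,56),(16,60)]),
      (([11,7],[8,7,6,4],[11,10,8,5]),[(0,0),(2,17)],[(0,0),(5,26),(8,37),(10,43)]),
      (([11,9],[9,8,6,4],[9,8,7,4]),[(0,0),(6,31),(10,47)],[(0,0),(2,13)])])
    (ms := [[(0,4,17),(0,8,28),(2,0,13),(2,4,30),(2,8,41),(6,0,32),(6,4,49),(6,8,60)],
      [(5,0,26),(10,0,45),(14,0,56),(16,0,60)],
      [(0,3,14),(0,8,33),(0,10,39),(2,0,21),(2,3,35),(2,8,54),(2,10,60)],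
      [(0,5,26),(0,10,45),(0,14,56),(0,16,60)],
      [(0,5,26),(0,8,37),(0,10,43),(2,0,17),(2,5,43),(2,8,54),(2,10,60)],
      [(0,2,13),(6,0,31),(6,2,44),(10,0,47),(10,2,60)]])
    (by decide +kernel) (by decide +kernel) (by decide +kernel) (by decide +kernel)

theorem good64 : Good ([12,11,10,9,7,6,5,4] : List ℕ).toFinset :=
  good_of_tree (n := 64)
    (es := [(([12,10,7,5],[10,9,5,4],[10,9,7,6]),[(0,0),(4,23),(8,42)],[(0,0),(5,16),(8,22)]),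
      (([12,10,7,5],[10,9,5,4],[10,9,5,4]),[(0,0),(4,23),(8,42),(13,58),(16,64)],[(0,0)]),
      (([12,10,7,5],[10,9,5,4],[12,11,5,4]),[(0,0),(5,16),(8,22)],[(0,0),(4,23),(8,42)]),
      (([12,10,7,5],[10,9,5,4],[12,11,7,6]),[(0,0)],[(0,0),(4,23),(8,42),(13,58),(16,64)]),
      (([],[11,9,6,4],[12,9,6,5]),[(0,0),(2,19),(4,32)],[(0,0),(2,23),(4,32)])])
    (ms := [[(0,5,16),(0,8,22),(4,0,23),(4,5,39),(4,8,45),(8,0,42),(8,5,58),(8,8,64)],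
      [(4,0,23),(8,0,42),(13,0,58),(16,0,64)],
      [(0,4,23),(0,8,42),(5,0,16),(5,4,39),(5,8,58),(8,0,22),(8,4,45),(8,8,64)],
      [(0,4,23),(0,8,42),(0,13,58),(0,16,64)],
      [(0,2,23),(0,4,32),(2,0,19),(2,2,42),(2,4,51),(4,0,32),(4,2,55),(4,4,64)]])
    (by decide +kernel) (by decide +kernel) (by decide +kernel) (by decide +kernel)

end Crest.Agent.SaxlN.MK
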