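import Crest.Agent.SaxlN.Arith
import Crest.Agent.SaxlN.Base1
import Crest.Agent.SaxlN.Base2
import Crest.Agent.SaxlN.Base3
import Crest.Agent.SaxlN.Base4
import Crest.Agent.SaxlN.Base5
import Crest.Agent.SaxlN.Base6
import Crest.Agent.SaxlN.Base7
import Crest.Agent.SaxlN.Base8

/-!
The base systems as `GS n h`.
-/

set_option autoImplicit false

namespace Crest.Agent.SaxlN.MK

open Finset

theorem gs_of {La : List ℕ} {n h : ℕ} (T : List ℕ)
    (hd : (decB La && (Nat.beq La.sum n && ((La.all fun L => Nat.ble L h) && balB T La 0 0))) = true)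
    (hG : Good La.toFinset) : GS n h := by
  simp only [Bool.and_eq_true] at hd
  obtain ⟨h1, h2, h3, h4⟩ := hd
  refine ⟨La.toFinset, ?_, ?_, ?_, ⟨_, bal_of_balB h1 h4⟩, hG⟩
  · intro h0
    have := (sum_toFinset_of_dec h1).2 0 (List.mem_toFinset.1 h0)
    omega
  · rw [sum_toFinset' h1]
    exact Nat.eq_of_beq_eq_true h2
  · intro L hL
    rw [List.all_eq_true] at h3
    exact Nat.le_of_ble_eq_true (h3 L (List.mem_toFinset.1 hL))

theorem gs18 : GS 18 6 := gs_of [4,3] (by decide) good18
theorem gs19 : GS 19 6 := gs_of [4,3] (by decide) good19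
theorem gs23 : GS 23 7 := gs_of [5,4] (by decide) good23
theorem gs25 : GS 25 7 := gs_of [5,4] (by decide) good25
theorem gs27 : GS 27 7 := gs_of [5,4,2] (by decide) good27
theorem gs29 : GS 29 8 := gs_of [6,5] (by decide) good29
theorem gs31 : GS 31 8 := gs_of [6,5,2] (by decide) good31
theorem gs32 : GS 32 8 := gs_of [6,5] (by decide) good32
theorem gs33 : GS 33 8 := gs_of [7,4,3] (by decide) good33
theorem gs34 : GS 34 8 := gs_of [7,4,3] (by decide) good34
theorem gs35 : GS 35 9 := gs_of [7,6,2] (by decide) good35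
theorem gs37 : GS 37 9 := gs_of [7,6,3] (by decide) good37
theorem gs38 : GS 38 9 := gs_of [7,6,3] (by decide) good38
theorem gs39 : GS 39 9 := gs_of [8,5,4] (by decide) good39
theorem gs40 : GS 40 9 := gs_of [7,6] (by decide) good40
theorem gs41 : GS 41 10 := gs_of [8,7,3] (by decide) good41
theorem gs42 : GS 42 9 := gs_of [8,5,4] (by decide) good42
theorem gs43 : GS 43 10 := gs_of [8,7,4] (by decide) good43
theorem gs46 : GS 46 10 := gs_of [8,7,4] (by decide) good46
theorem gs48 : GS 48 10 := gs_of [8,7,3,2] (by decide) good48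
theorem gs49 : GS 49 10 := gs_of [8,7] (by decide) good49
theorem gs50 : GS 50 10 := gs_of [8,7,5,2] (by decide) good50
theorem gs51 : GS 51 10 := gs_of [9,6,5] (by decide) good51
theorem gs54 : GS 54 11 := gs_of [9,8,5,2] (by decide) good54
theorem gs56 : GS 56 11 := gs_of [9,8,4,3] (by decide) good56
theorem gs57 : GS 57 12 := gs_of [10,9] (by decide) good57
theorem gs58 : GS 58 11 := gs_of [9,8,6,3] (by decide) good58
theorem gs59 : GS 59 11 := gs_of [9,8] (by decide) good59
theorem gs60 : GS 60 11 := gs_of [7,6,5,4] (by decide) good60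
theorem gs62 : GS 62 12 := gs_of [10,9,6,3] (by decide) good62
theorem gs64 : GS 64 12 := gs_of [10,9,5,4] (by decide) good64
theorem gs67 : GS 67 13 := gs_of [11,10] (by decide) good67
theorem gs68 : GS 68 12 := gs_of [8,7,6,5] (by decide) good68
theorem gs72 : GS 72 12 := gs_of [11,8,7] (by decide) good72

end Crest.Agent.SaxlN.MK
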