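import Crest.Agent.SaxlN.SysMain
import Crest.Agent.SG.Fin

/-!
# Bridge between the left ideal `IV a A` and the Specht module `VV a A`
-/

set_option autoImplicit false
set_option linter.unusedSectionVars false

namespace Crest.Agent.SaxlN

open Finset Equiv
open Crest.Agent.Saxl
open Crest.Agent.SG (ph pa VV Vrep Vrep_irreducible fin_word)

variable {X : Type} [Fintype X] [DecidableEq X]

theorem br_transfer {V V' W : Type} [AddCommGroup V] [Module ℂ V] [AddCommGroup V'] [Module ℂ V']
    [AddCommGroup W] [Module ℂ W] (ρ : Representation ℂ (Perm X) V)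
    (ρ' : Representation ℂ (Perm X) V') (σ : Representation ℂ (Perm X) W)
    (f : V →ₗ[ℂ] V') (hf : Function.Bijective f) (heq : ∀ g v, f (ρ g v) = ρ' g (f v))
    (hn : Nontrivial (Representation.IntertwiningMap σ (Representation.tprod ρ ρ))) :
    Nontrivial (Representation.IntertwiningMap σ (Representation.tprod ρ' ρ')) := by
  obtain ⟨φ, hφ⟩ := exists_ne (0 : Representation.IntertwiningMap σ (Representation.tprod ρ ρ))
  let e : V ≃ₗ[ℂ] V' := LinearEquiv.ofBijective f hf
  let F := TensorProduct.congr e e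
  have hF : ∀ g x, F (Representation.tprod ρ ρ g x) = Representation.tprod ρ' ρ' g (F x) := by
    intro g x
    induction x using TensorProduct.induction_on with
    | zero => simp
    | tmul a b =>
      rw [Representation.tprod_apply, TensorProduct.map_tmul, Representation.tprod_apply]
      show TensorProduct.congr e e _ = TensorProduct.map _ _ (TensorProduct.congr e e _)
      rw [TensorProduct.congr_tmul, TensorProduct.congr_tmul, TensorProduct.map_tmul]
      have h1 : ∀ v, e (ρ g v) = ρ' g (e v) := heq g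
      rw [h1, h1]
    | add a b ha hb => rw [map_add, map_add, ha, hb, map_add, map_add]
  let ψ : Representation.IntertwiningMap σ (Representation.tprod ρ' ρ') :=
    { toLinearMap := F.toLinearMap ∘ₗ φ.toLinearMap
      isIntertwining' := fun g => LinearMap.ext fun v => by
        show F (φ.toLinearMap (σ g v)) = Representation.tprod ρ' ρ' g (F (φ.toLinearMap v))
        have h1 : φ.toLinearMap (σ g v) = Representation.tprod ρ ρ g (φ.toLinearMap v) :=
          LinearMap.congr_fun (φ.isIntertwining' g) v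
        rw [h1, hF] }
  refine ⟨ψ, 0, ?_⟩
  intro h0
  apply hφ
  have h1 : ∀ v, φ.toLinearMap v = 0 := by
    intro v
    have h2 : ψ.toLinearMap v = 0 := by rw [h0]; rfl
    have h3 : F (φ.toLinearMap v) = 0 := h2
    exact F.map_eq_zero_iff.1 h3
  have h2 : φ.toLinearMap = 0 := LinearMap.ext h1
  cases φ
  congr

/-- the Young symmetriser on the Specht module -/
theorem br_yact {a A : Word X} (h : IsTab (fun _ => 0) a A) :
    ∃ v : VV a A, yact (Vrep a A) a A v ≠ 0 := by
  have hmem : pa a A ∈ VV a A := by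
    refine Submodule.subset_span ⟨1, ?_⟩
    simp
  obtain ⟨Y, hY⟩ := fin_word h
  refine ⟨⟨_, hmem⟩, ?_⟩
  intro h0
  let ev : VV a A →ₗ[ℂ] ℂ :=
    (LinearMap.proj (R := ℂ) (φ := fun _ => ℂ) Y) ∘ₗ (VV a A).subtype
  have h1 := congrArg ev h0
  rw [map_zero] at h1
  unfold yact at h1
  simp only [map_sum, map_smul] at h1
  have hg : ∀ g : Perm X, ev (Vrep a A g ⟨pa a A, hmem⟩) = ((ph a A g : ℤ) : ℂ) := by
    intro g
    rw [hY]
    rfl
  simp only [hg] at h1
  have key : ∀ r ∈ Rs a, ∀ c ∈ Rs A, ph a A (r * c) = ((Perm.sign c : ℤˣ) : ℤ) := by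
    intro r hr c hc
    have hr' : a ∘ r = a := (Finset.mem_filter.1 hr).2
    have hc' : A ∘ c = A := (Finset.mem_filter.1 hc).2
    have harc : a ∘ (r * c : Perm X) = a ∘ c := by
      funext x
      exact congrFun hr' (c x)
    unfold Crest.Agent.SG.ph
    rw [Finset.sum_eq_single_of_mem c hc]
    · rw [if_pos harc]
    · intro d hd hdc
      rw [if_neg]
      intro hcon
      apply hdc
      have hd' : A ∘ d = A := (Finset.mem_filter.1 hd).2
      ext x
      symm
      apply h.inj
      have e1 : a (c x) = a (d x) := by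
        have := congrFun (harc.symm.trans hcon) x
        exact this
      have e2 : A (c x) = A (d x) := (congrFun hc' x).trans (congrFun hd' x).symm
      simp only [e1, e2]
  have h2 : (∑ r ∈ Rs a, ∑ c ∈ Rs A, (((Perm.sign c : ℤˣ) : ℤ) : ℂ) * ((ph a A (r * c) : ℤ) : ℂ)) =
      (((Rs a).card * (Rs A).card : ℕ) : ℂ) := by
    rw [Finset.sum_congr rfl (g := fun _ => ((Rs A).card : ℂ))]
    · simp
    · intro r hr
      rw [Finset.sum_congr rfl (g := fun _ => (1 : ℂ))]
      · simp
      · intro c hc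
        rw [key r hr c hc]
        rcases Int.units_eq_one_or (Perm.sign c) with h | h <;> simp [h]
  have h3 : (((Rs a).card * (Rs A).card : ℕ) : ℂ) = 0 := by
    rw [← h2, ← h1]
    rfl
  have hpos : ∀ w : Word X, 0 < (Rs w).card := fun w =>
    Finset.card_pos.2 ⟨1, Finset.mem_filter.2 ⟨Finset.mem_univ _, rfl⟩⟩
  have h4 := Nat.mul_pos (hpos a) (hpos A)
  exact absurd (Nat.cast_eq_zero.1 h3) (by omega)

theorem sys_VV {La : Finset ℕ} (h0 : 0 ∉ La)
    {R₀ C₀ : Word X} (hinj : Function.Injective fun x => (R₀ x, C₀ x))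
    (him : (Set.range fun x => (R₀ x, C₀ x)) = DD La)
    {W : Type} [AddCommGroup W] [Module ℂ W] [FiniteDimensional ℂ W]
    (σ : Representation ℂ (Perm X) W) (hσ : Representation.IsIrreducible σ) (h : HasSV La σ) :
    Nontrivial (Representation.IntertwiningMap σ
      (Representation.tprod (Vrep R₀ C₀) (Vrep R₀ C₀))) := by
  have hT : IsTab (fun _ => 0) R₀ C₀ := isTab_of_DD hinj him
  have h1 := sys_W h0 hinj him σ hσ h
  obtain ⟨v, hv⟩ := br_yact hT
  let f : IV R₀ C₀ →ₗ[ℂ] VV R₀ C₀ :=
    { toFun := fun x => (Vrep R₀ C₀).asAlgebraHom x.1 v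
      map_add' := fun x y => by simp
      map_smul' := fun z x => by simp }
  have hf : ∀ g x, f (IVrep R₀ C₀ g x) = Vrep R₀ C₀ g (f x) := by
    intro g x
    show (Vrep R₀ C₀).asAlgebraHom (MonoidAlgebra.of ℂ (Perm X) g * x.1) v = _
    rw [map_mul]
    show (Vrep R₀ C₀).asAlgebraHom (MonoidAlgebra.of ℂ (Perm X) g)
      ((Vrep R₀ C₀).asAlgebraHom x.1 v) = _
    rw [Representation.asAlgebraHom_of]
    rfl
  let F : Representation.IntertwiningMap (IVrep R₀ C₀) (Vrep R₀ C₀) :=
    { toLinearMap := f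
      isIntertwining' := fun g => LinearMap.ext fun v => hf g v }
  have hF : F ≠ 0 := by
    intro h0
    apply hv
    have hE : EP R₀ C₀ ∈ IV R₀ C₀ := Submodule.mem_map.2 ⟨1, trivial, by simp⟩
    have h2 : F.toLinearMap ⟨EP R₀ C₀, hE⟩ = 0 := by rw [h0]; rfl
    have h3 : (Vrep R₀ C₀).asAlgebraHom (EP R₀ C₀) v = 0 := h2
    rw [asAlgebraHom_EP] at h3
    exact h3
  have := IV_irreducible hT
  have := Vrep_irreducible hT
  have hb := (Representation.IsIrreducible.bijective_or_eq_zero F).resolve_right hF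
  exact br_transfer _ _ σ f hb hf h1

end Crest.Agent.SaxlN
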