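import Crest.Agent.SaxlN.Bridge
import Crest.Agent.SG.Main

/-!
# Mixing the gluing theorem and the semigroup (used for `n = 47`)
-/

set_option autoImplicit false
set_option linter.unusedSectionVars false

namespace Crest.Agent.SaxlN

open Finset Equiv Crest.Agent.Saxl Crest.Agent.SG

/-- a positive triple `(l, l, ν)` gives an intertwining map from `W` of shape `ν` to the tensor square of the
Specht module of shape `l` (copied from `full_S0298`) -/
theorem good_W {n : ℕ} {l ν : List ℕ} {a0 A0 : Word (Fin n)} (h0 : Tb a0 A0) (r0 : RowSz a0 l)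
    {ρ κ : Word (Fin n)} (hρ : Tb ρ κ) (rν : RowSz ρ ν) (hg : Crest.Agent.SG.Good l l ν)
    {W : Type} [AddCommGroup W] [Module ℂ W] [FiniteDimensional ℂ W]
    (σ : Representation ℂ (Equiv.Perm (Fin n)) W) (hσ : Representation.IsIrreducible σ)
    (w0 : W) (hw0 : yact σ ρ κ w0 ≠ 0) :
    Nontrivial (Representation.IntertwiningMap σ (Representation.tprod (Vrep a0 A0) (Vrep a0 A0))) := by
  classical
  obtain ⟨X, i1, i2, a, A, b, B, c, C, ha, hb, hc, ra, rb, rc, hE⟩ := hg
  obtain ⟨u, v, w, hJ⟩ := (JN_iff _ _ _ _ _ _).2 hE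
  have hXn : Fintype.card X = Fintype.card (Fin n) := by rw [card_of_rowSz ra, card_of_rowSz r0]
  let e : Fin n ≃ X := (Fintype.equivOfCardEq hXn).symm
  -- transport to `Fin n`
  have hcnt : ∀ {a a' : Word (Fin n)} {l : List ℕ}, RowSz a l → RowSz a' l →
      ∀ t, (univ.filter (fun x => a' x < t)).card = (univ.filter (fun x => a x < t)).card := by
    intro a a' l h h' t
    have key : ∀ f : Word (Fin n), (univ.filter (fun x => f x < t)).card =
        ∑ i ∈ range t, (univ.filter (fun x => f x = i)).card := by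
      intro f
      rw [card_eq_sum_card_fiberwise (f := f) (t := range t)
        (fun x hx => by rw [mem_coe, mem_filter] at hx; exact mem_coe.2 (mem_range.2 hx.2))]
      refine sum_congr rfl fun i hi => ?_
      congr 1
      ext x
      simp only [mem_filter, mem_univ, true_and]
      constructor
      · exact fun h => h.2
      · exact fun h => ⟨by rw [h]; exact mem_range.1 hi, h⟩
    rw [key, key]
    exact sum_congr rfl fun i _ => by rw [h i, h' i]
  obtain ⟨g1, hg1, hg1'⟩ := tab_conj (tb_equiv ha e) h0 (hcnt (rowSz_equiv ra e) r0)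
  obtain ⟨g2, hg2, hg2'⟩ := tab_conj (tb_equiv hb e) h0 (hcnt (rowSz_equiv rb e) r0)
  obtain ⟨g3, hg3, hg3'⟩ := tab_conj (tb_equiv hc e) hρ (hcnt (rowSz_equiv rc e) rν)
  have hJ2 : JJ (a ∘ e) (A ∘ e) (b ∘ e) (B ∘ e) (c ∘ e) (C ∘ e) (e.permCongr.symm u)
      (e.permCongr.symm v) (e.permCongr.symm w) ≠ 0 := by
    convert hJ using 1
    unfold JJ
    symm
    refine Fintype.sum_equiv (e.permCongr.symm) _ _ fun g => ?_
    have hm : ∀ x y : Perm X, e.permCongr.symm x * e.permCongr.symm y = e.permCongr.symm (x * y) := by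
      intro x y
      ext i
      simp
    rw [hm, hm, hm, ph_equiv, ph_equiv, ph_equiv]
  set u' := e.permCongr.symm u
  set v' := e.permCongr.symm v
  set w' := e.permCongr.symm w
  rw [← hg1, ← hg1', ← hg2, ← hg2', ← hg3, ← hg3'] at hJ2
  -- move the third tableau to the base position
  have key : ∀ (a A : Word (Fin n)) (h x : Perm (Fin n)),
      ph (a ∘ h) (A ∘ h) (x * g3) = ph (a ∘ (h * g3⁻¹ : Perm (Fin n))) (A ∘ (h * g3⁻¹ : Perm (Fin n))) (g3 * x) := by
    intro a A h x
    have := ph_conj (a ∘ h) (A ∘ h) g3⁻¹ (x * g3)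
    rw [← this]
    congr 1
    rw [inv_inv]
    group
  refine occurs h0 hρ (g1 * g3⁻¹) (g2 * g3⁻¹) (g3 * u') (g3 * v') (g3 * w') ?_ W σ hσ w0 hw0
  convert hJ2 using 1
  unfold JJ
  refine Fintype.sum_equiv (Equiv.mulRight g3) _ _ fun g => ?_
  simp only [Equiv.coe_mulRight, ← mul_assoc]
  rw [key, key, key]
  have e3 : (g3 * g3⁻¹ : Perm (Fin n)) = 1 := mul_inv_cancel g3
  rw [e3]
  simp only [mul_assoc]
  rfl


/-- MIXED THEOREM: for every irreducible `W` either a semi-invariant vector for the system `La`, or a positive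
triple `(l, l, ν)`, `l` the row lengths of the shape of `La`. -/
theorem s298_mixed {n : ℕ} {La : Finset ℕ} (h0 : 0 ∉ La) (hn : ∑ L ∈ La, L = n)
    (hex : ∃ t, Bal La t) {l : List ℕ} {m : ℕ} (hm : ∀ L ∈ La, L ≤ m)
    (hl : ∀ i, ((range m).filter (fun j => ∃ L ∈ La, (La.filter (fun M => L < M)).card = 2 * min i j ∧
      i + j < L + 2 * min i j)).card = l.getD i 0)
    (H : ∀ (W : Type) [AddCommGroup W] [Module ℂ W] [FiniteDimensional ℂ W]
      (σ : Representation ℂ (Perm (Fin n)) W), Representation.IsIrreducible σ →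
      HasSV La σ ∨ ∃ (ρ κ : Word (Fin n)) (ν : List ℕ) (w0 : W), Tb ρ κ ∧ RowSz ρ ν ∧
        Crest.Agent.SG.Good l l ν ∧ yact σ ρ κ w0 ≠ 0) :
    S298 n := by
  obtain ⟨R₀, C₀, hinj, him⟩ := exists_ref h0 hn hex
  have hT := isTab_of_DD hinj him
  refine ⟨VV R₀ C₀, inferInstance, inferInstance, inferInstance, Vrep R₀ C₀, Vrep_irreducible hT, ?_⟩
  intro W _ _ _ σ hσ
  rcases H W σ hσ with h | ⟨ρ, κ, ν, w0, hρ, hν, hg, hw0⟩
  · exact sys_VV h0 hinj him σ hσ h
  · refine good_W hT ?_ hρ hν hg σ hσ w0 hw0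
    intro i
    rw [← hl i]
    have hbound : ∀ x, C₀ x < m := by
      intro x
      have h1 : (R₀ x, C₀ x) ∈ DD La := by rw [← him]; exact ⟨x, rfl⟩
      obtain ⟨L, hL, h2, h3⟩ := h1
      have h4 := hm L hL
      simp only at h2 h3
      have h5 : (La.filter (fun M => L < M)).card ≤ m - L := by
        rw [← Nat.card_Ioc]
        apply Finset.card_le_card
        intro M hM
        rw [mem_filter] at hM
        rw [mem_Ioc]
        exact ⟨hM.2, hm M hM.1⟩
      have h6 : L ≠ 0 := fun h => h0 (h ▸ hL)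
      omega
    refine Finset.card_bij (fun x _ => C₀ x) ?_ ?_ ?_
    · intro x hx
      simp only [mem_filter, mem_univ, true_and, mem_range] at hx ⊢
      have h1 : (R₀ x, C₀ x) ∈ DD La := by rw [← him]; exact ⟨x, rfl⟩
      rw [← hx]
      exact ⟨hbound x, h1⟩
    · intro x hx y hy hxy
      simp only [mem_filter, mem_univ, true_and] at hx hy
      apply hinj
      simp only [hx, hy, hxy]
    · intro j hj
      simp only [mem_filter, mem_range] at hj
      have h1 : (i, j) ∈ DD La := hj.2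
      rw [← him] at h1
      obtain ⟨x, hx⟩ := h1
      simp only [Prod.mk.injEq] at hx
      exact ⟨x, by simp only [mem_filter, mem_univ, true_and]; exact hx.1, hx.2⟩

end Crest.Agent.SaxlN
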