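import Crest.Agent.SaxlN.Arith
import Crest.Agent.SaxlN.Base1
import Crest.Agent.SaxlN.Base2
import Crest.Agent.SaxlN.Base3
import Crest.Agent.SaxlN.Base4
import Crest.Agent.SaxlN.Base5
import Crest.Agent.SaxlN.Base6
import Crest.Agent.SaxlN.Base7
import Crest.Agent.SaxlN.Base8

/-!
# Row 195, S0298: the table of good systems up to 109 and the induction
-/

set_option autoImplicit false

namespace Crest.Agent.SaxlN

open MK

theorem gs_of_good {La : List ℕ} {n h : ℕ} (T : List ℕ) (hG : Good La.toFinset)
    (hd : decB La = true) (h0 : (La.all fun L => Nat.ble 1 L) = true)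
    (hh : (La.all fun L => Nat.ble L h) = true) (hs : La.sum = n)
    (hb : balB T La 0 0 = true) : GS n h := by
  rw [List.all_eq_true] at h0 hh
  refine ⟨La.toFinset, ?_, ?_, ?_, ⟨_, bal_of_balB hd hb⟩, hG⟩
  · intro hc
    have := Nat.le_of_ble_eq_true (h0 0 (List.mem_toFinset.1 hc))
    omega
  · rw [sum_toFinset' hd, hs]
  · intro L hL
    exact Nat.le_of_ble_eq_true (hh L (List.mem_toFinset.1 hL))

theorem gs18 : GS 18 6 :=
  gs_of_good [4,3] good18 (by decide) (by decide) (by decide) (by decide) (by decide)
theorem gs19 : GS 19 6 :=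
  gs_of_good [4,3] good19 (by decide) (by decide) (by decide) (by decide) (by decide)
theorem gs23 : GS 23 7 :=
  gs_of_good [5,4] good23 (by decide) (by decide) (by decide) (by decide) (by decide)
theorem gs25 : GS 25 7 :=
  gs_of_good [5,4] good25 (by decide) (by decide) (by decide) (by decide) (by decide)
theorem gs27 : GS 27 7 :=
  gs_of_good [5,4,2] good27 (by decide) (by decide) (by decide) (by decide) (by decide)
theorem gs29 : GS 29 8 :=
  gs_of_good [6,5] good29 (by decide) (by decide) (by decide) (by decide) (by decide)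
theorem gs31 : GS 31 8 :=
  gs_of_good [6,5,2] good31 (by decide) (by decide) (by decide) (by decide) (by decide)
theorem gs32 : GS 32 8 :=
  gs_of_good [6,5] good32 (by decide) (by decide) (by decide) (by decide) (by decide)
theorem gs33 : GS 33 8 :=
  gs_of_good [7,4,3] good33 (by decide) (by decide) (by decide) (by decide) (by decide)
theorem gs34 : GS 34 8 :=
  gs_of_good [7,4,3] good34 (by decide) (by decide) (by decide) (by decide) (by decide)
theorem gs35 : GS 35 9 :=
  gs_of_good [7,6,2] good35 (by decide) (by decide) (by decide) (by decide) (by decide)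
theorem gs37 : GS 37 9 :=
  gs_of_good [7,6,3] good37 (by decide) (by decide) (by decide) (by decide) (by decide)
theorem gs38 : GS 38 9 :=
  gs_of_good [7,6,3] good38 (by decide) (by decide) (by decide) (by decide) (by decide)
theorem gs39 : GS 39 9 :=
  gs_of_good [8,5,4] good39 (by decide) (by decide) (by decide) (by decide) (by decide)
theorem gs40 : GS 40 9 :=
  gs_of_good [7,6] good40 (by decide) (by decide) (by decide) (by decide) (by decide)
theorem gs42 : GS 42 9 :=
  gs_of_good [8,5,4] good42 (by decide) (by decide) (by decide) (by decide) (by decide)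
theorem gs43 : GS 43 10 :=
  gs_of_good [8,7,4] good43 (by decide) (by decide) (by decide) (by decide) (by decide)
theorem gs46 : GS 46 10 :=
  gs_of_good [8,7,4] good46 (by decide) (by decide) (by decide) (by decide) (by decide)
theorem gs48 : GS 48 10 :=
  gs_of_good [8,7,3,2] good48 (by decide) (by decide) (by decide) (by decide) (by decide)
theorem gs49 : GS 49 10 :=
  gs_of_good [8,7] good49 (by decide) (by decide) (by decide) (by decide) (by decide)
theorem gs50 : GS 50 10 :=
  gs_of_good [8,7,5,2] good50 (by decide) (by decide) (by decide) (by decide) (by decide)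
theorem gs51 : GS 51 10 :=
  gs_of_good [9,6,5] good51 (by decide) (by decide) (by decide) (by decide) (by decide)
theorem gs54 : GS 54 11 :=
  gs_of_good [9,8,5,2] good54 (by decide) (by decide) (by decide) (by decide) (by decide)
theorem gs56 : GS 56 11 :=
  gs_of_good [9,8,4,3] good56 (by decide) (by decide) (by decide) (by decide) (by decide)
theorem gs57 : GS 57 12 :=
  gs_of_good [10,9] good57 (by decide) (by decide) (by decide) (by decide) (by decide)
theorem gs58 : GS 58 11 :=
  gs_of_good [9,8,6,3] good58 (by decide) (by decide) (by decide) (by decide) (by decide)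
theorem gs59 : GS 59 11 :=
  gs_of_good [9,8] good59 (by decide) (by decide) (by decide) (by decide) (by decide)
theorem gs60 : GS 60 11 :=
  gs_of_good [7,6,5,4] good60 (by decide) (by decide) (by decide) (by decide) (by decide)
theorem gs62 : GS 62 12 :=
  gs_of_good [10,9,6,3] good62 (by decide) (by decide) (by decide) (by decide) (by decide)
theorem gs64 : GS 64 12 :=
  gs_of_good [10,9,5,4] good64 (by decide) (by decide) (by decide) (by decide) (by decide)
theorem gs67 : GS 67 13 :=
  gs_of_good [11,10] good67 (by decide) (by decide) (by decide) (by decide) (by decide)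
theorem gs68 : GS 68 12 :=
  gs_of_good [8,7,6,5] good68 (by decide) (by decide) (by decide) (by decide) (by decide)
theorem gs72 : GS 72 12 :=
  gs_of_good [11,8,7] good72 (by decide) (by decide) (by decide) (by decide) (by decide)

theorem gs0 : GS 0 0 := GS.core 0
theorem gs1 : GS 1 1 := GS.core 1
theorem gs3 : GS 3 2 := GS.core 2
theorem gs6 : GS 6 3 := GS.core 3
theorem gs10 : GS 10 4 := GS.core 4
theorem gs14 : GS 14 5 := gs0.F 4 (by norm_num) (by norm_num) (by norm_num) (by norm_num)
theorem gs15 : GS 15 5 := GS.core 5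
theorem gs21 : GS 21 6 := GS.core 6
theorem gs28 : GS 28 7 := GS.core 7
theorem gs36 : GS 36 8 := GS.core 8
theorem gs44 : GS 44 9 := gs14.F 8 (by norm_num) (by norm_num) (by norm_num) (by norm_num)
theorem gs45 : GS 45 9 := GS.core 9
theorem gs52 : GS 52 10 := gs18.F 9 (by norm_num) (by norm_num) (by norm_num) (by norm_num)
theorem gs53 : GS 53 10 := gs19.F 9 (by norm_num) (by norm_num) (by norm_num) (by norm_num)
theorem gs55 : GS 55 10 := GS.core 10
theorem gs61 : GS 61 11 := gs23.F 10 (by norm_num) (by norm_num) (by norm_num) (by norm_num)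
theorem gs63 : GS 63 11 := gs25.F 10 (by norm_num) (by norm_num) (by norm_num) (by norm_num)
theorem gs65 : GS 65 11 := gs27.F 10 (by norm_num) (by norm_num) (by norm_num) (by norm_num)
theorem gs66 : GS 66 11 := GS.core 11
theorem gs69 : GS 69 12 := gs27.F 11 (by norm_num) (by norm_num) (by norm_num) (by norm_num)
theorem gs70 : GS 70 12 := gs28.F 11 (by norm_num) (by norm_num) (by norm_num) (by norm_num)
theorem gs71 : GS 71 12 := gs29.F 11 (by norm_num) (by norm_num) (by norm_num) (by norm_num)
theorem gs73 : GS 73 12 := gs31.F 11 (by norm_num) (by norm_num) (by norm_num) (by norm_num)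
theorem gs74 : GS 74 12 := gs32.F 11 (by norm_num) (by norm_num) (by norm_num) (by norm_num)
theorem gs75 : GS 75 12 := gs33.F 11 (by norm_num) (by norm_num) (by norm_num) (by norm_num)
theorem gs76 : GS 76 12 := gs34.F 11 (by norm_num) (by norm_num) (by norm_num) (by norm_num)
theorem gs77 : GS 77 13 := gs31.F 12 (by norm_num) (by norm_num) (by norm_num) (by norm_num)
theorem gs78 : GS 78 12 := GS.core 12
theorem gs79 : GS 79 13 := gs33.F 12 (by norm_num) (by norm_num) (by norm_num) (by norm_num)
theorem gs80 : GS 80 13 := gs34.F 12 (by norm_num) (by norm_num) (by norm_num) (by norm_num)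
theorem gs81 : GS 81 13 := gs35.F 12 (by norm_num) (by norm_num) (by norm_num) (by norm_num)
theorem gs82 : GS 82 13 := gs36.F 12 (by norm_num) (by norm_num) (by norm_num) (by norm_num)
theorem gs83 : GS 83 13 := gs37.F 12 (by norm_num) (by norm_num) (by norm_num) (by norm_num)
theorem gs84 : GS 84 13 := gs38.F 12 (by norm_num) (by norm_num) (by norm_num) (by norm_num)
theorem gs85 : GS 85 13 := gs39.F 12 (by norm_num) (by norm_num) (by norm_num) (by norm_num)
theorem gs86 : GS 86 13 := gs40.F 12 (by norm_num) (by norm_num) (by norm_num) (by norm_num)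
theorem gs87 : GS 87 14 := gs37.F 13 (by norm_num) (by norm_num) (by norm_num) (by norm_num)
theorem gs88 : GS 88 13 := gs42.F 12 (by norm_num) (by norm_num) (by norm_num) (by norm_num)
theorem gs89 : GS 89 14 := gs39.F 13 (by norm_num) (by norm_num) (by norm_num) (by norm_num)
theorem gs90 : GS 90 13 := gs44.F 12 (by norm_num) (by norm_num) (by norm_num) (by norm_num)
theorem gs91 : GS 91 13 := GS.core 13
theorem gs92 : GS 92 14 := gs42.F 13 (by norm_num) (by norm_num) (by norm_num) (by norm_num)
theorem gs93 : GS 93 14 := gs43.F 13 (by norm_num) (by norm_num) (by norm_num) (by norm_num)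
theorem gs94 : GS 94 14 := gs44.F 13 (by norm_num) (by norm_num) (by norm_num) (by norm_num)
theorem gs95 : GS 95 14 := gs45.F 13 (by norm_num) (by norm_num) (by norm_num) (by norm_num)
theorem gs96 : GS 96 14 := gs46.F 13 (by norm_num) (by norm_num) (by norm_num) (by norm_num)
theorem gs97 : GS 97 15 := gs43.F 14 (by norm_num) (by norm_num) (by norm_num) (by norm_num)
theorem gs98 : GS 98 14 := gs48.F 13 (by norm_num) (by norm_num) (by norm_num) (by norm_num)
theorem gs99 : GS 99 14 := gs49.F 13 (by norm_num) (by norm_num) (by norm_num) (by norm_num)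
theorem gs100 : GS 100 14 := gs50.F 13 (by norm_num) (by norm_num) (by norm_num) (by norm_num)
theorem gs101 : GS 101 14 := gs51.F 13 (by norm_num) (by norm_num) (by norm_num) (by norm_num)
theorem gs102 : GS 102 14 := gs52.F 13 (by norm_num) (by norm_num) (by norm_num) (by norm_num)
theorem gs103 : GS 103 14 := gs53.F 13 (by norm_num) (by norm_num) (by norm_num) (by norm_num)
theorem gs104 : GS 104 15 := gs50.F 14 (by norm_num) (by norm_num) (by norm_num) (by norm_num)
theorem gs105 : GS 105 14 := GS.core 14
theorem gs106 : GS 106 15 := gs52.F 14 (by norm_num) (by norm_num) (by norm_num) (by norm_num)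
theorem gs107 : GS 107 15 := gs53.F 14 (by norm_num) (by norm_num) (by norm_num) (by norm_num)
theorem gs108 : GS 108 15 := gs54.F 14 (by norm_num) (by norm_num) (by norm_num) (by norm_num)
theorem gs109 : GS 109 15 := gs55.F 14 (by norm_num) (by norm_num) (by norm_num) (by norm_num)

/-- all sizes from 48 on -/
theorem pg_all (n : ℕ) (hn : 48 ≤ n) : PG n := by
  induction n using Nat.strong_induction_on with
  | _ n ih =>
    rcases Nat.lt_or_ge n 110 with h | h
    · interval_cases n
      · exact ⟨_, by norm_num, gs48⟩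
      · exact ⟨_, by norm_num, gs49⟩
      · exact ⟨_, by norm_num, gs50⟩
      · exact ⟨_, by norm_num, gs51⟩
      · exact ⟨_, by norm_num, gs52⟩
      · exact ⟨_, by norm_num, gs53⟩
      · exact ⟨_, by norm_num, gs54⟩
      · exact ⟨_, by norm_num, gs55⟩
      · exact ⟨_, by norm_num, gs56⟩
      · exact ⟨_, by norm_num, gs57⟩
      · exact ⟨_, by norm_num, gs58⟩
      · exact ⟨_, by norm_num, gs59⟩
      · exact ⟨_, by norm_num, gs60⟩
      · exact ⟨_, by norm_num, gs61⟩
      · exact ⟨_, by norm_num, gs62⟩
      · exact ⟨_, by norm_num, gs63⟩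
      · exact ⟨_, by norm_num, gs64⟩
      · exact ⟨_, by norm_num, gs65⟩
      · exact ⟨_, by norm_num, gs66⟩
      · exact ⟨_, by norm_num, gs67⟩
      · exact ⟨_, by norm_num, gs68⟩
      · exact ⟨_, by norm_num, gs69⟩
      · exact ⟨_, by norm_num, gs70⟩
      · exact ⟨_, by norm_num, gs71⟩
      · exact ⟨_, by norm_num, gs72⟩
      · exact ⟨_, by norm_num, gs73⟩
      · exact ⟨_, by norm_num, gs74⟩
      · exact ⟨_, by norm_num, gs75⟩
      · exact ⟨_, by norm_num, gs76⟩
      · exact ⟨_, by norm_num, gs77⟩
      · exact ⟨_, by norm_num, gs78⟩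
      · exact ⟨_, by norm_num, gs79⟩
      · exact ⟨_, by norm_num, gs80⟩
      · exact ⟨_, by norm_num, gs81⟩
      · exact ⟨_, by norm_num, gs82⟩
      · exact ⟨_, by norm_num, gs83⟩
      · exact ⟨_, by norm_num, gs84⟩
      · exact ⟨_, by norm_num, gs85⟩
      · exact ⟨_, by norm_num, gs86⟩
      · exact ⟨_, by norm_num, gs87⟩
      · exact ⟨_, by norm_num, gs88⟩
      · exact ⟨_, by norm_num, gs89⟩
      · exact ⟨_, by norm_num, gs90⟩
      · exact ⟨_, by norm_num, gs91⟩
      · exact ⟨_, by norm_num, gs92⟩
      · exact ⟨_, by norm_num, gs93⟩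
      · exact ⟨_, by norm_num, gs94⟩
      · exact ⟨_, by norm_num, gs95⟩
      · exact ⟨_, by norm_num, gs96⟩
      · exact ⟨_, by norm_num, gs97⟩
      · exact ⟨_, by norm_num, gs98⟩
      · exact ⟨_, by norm_num, gs99⟩
      · exact ⟨_, by norm_num, gs100⟩
      · exact ⟨_, by norm_num, gs101⟩
      · exact ⟨_, by norm_num, gs102⟩
      · exact ⟨_, by norm_num, gs103⟩
      · exact ⟨_, by norm_num, gs104⟩
      · exact ⟨_, by norm_num, gs105⟩
      · exact ⟨_, by norm_num, gs106⟩
      · exact ⟨_, by norm_num, gs107⟩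
      · exact ⟨_, by norm_num, gs108⟩
      · exact ⟨_, by norm_num, gs109⟩
    · exact PG.step h fun r hr1 hr2 => ih r hr2 hr1

/-- S0298 for all sizes from 44 on except 47 -/
theorem s298_large (n : ℕ) (hn : 44 ≤ n) (h47 : n ≠ 47) : S298 n := by
  rcases Nat.lt_or_ge n 48 with h | h
  · interval_cases n
    · exact gs44.s298
    · exact gs45.s298
    · exact gs46.s298
    · exact absurd rfl h47
  · obtain ⟨h, _, hg⟩ := pg_all n h
    exact hg.s298

end Crest.Agent.SaxlN
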